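import Vale.Agent.P165.Spread

/-!
Nonuniqueness for graphs with an expansion bound and large degree, for large blow-ups of
every nonamenable quasi-transitive graph, and for all its spread-out versions of large range.
-/

namespace Vale.Agent.Results.P165.LargeDegree

open SimpleGraph Vale.Agent.P165

theorem result :
    (∀ (V : Type) (G : SimpleGraph V) [G.LocallyFinite] (d : ℕ) (ρ : ℝ),
      Infinite V → G.Connected → QuasiTransitive G → G.IsRegularOfDegree d →
      0 ≤ ρ → ρ < 1 → AdjNorm G (ρ * d) → 400 ≤ (1 - ρ) ^ 3 * d → pc G < pu G) ∧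
    (∀ (V : Type) (G : SimpleGraph V) [G.LocallyFinite] (d : ℕ) (c : ℝ),
      Infinite V → G.Connected → QuasiTransitive G → G.IsRegularOfDegree d → 0 < c →
      (∀ A : Finset V, c * d * A.card ≤ ∑ x ∈ A, ({y | G.Adj x y ∧ y ∉ A}.ncard : ℝ)) →
      4000 ≤ c ^ 6 * d → pc G < pu G) ∧
    (∀ (V : Type) (G : SimpleGraph V) [G.LocallyFinite],
      Infinite V → G.Connected → QuasiTransitive G → Nonamenable G →
      ∃ m₀ : ℕ, ∀ m ≥ m₀, pc (G.comap (Prod.fst : V × Fin m → V))
        < pu (G.comap (Prod.fst : V × Fin m → V))) ∧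
    (∀ (V : Type) (G : SimpleGraph V) [G.LocallyFinite],
      Infinite V → G.Connected → QuasiTransitive G → Nonamenable G →
      ∃ r₀ : ℕ, ∀ r ≥ r₀, pc (SimpleGraph.fromRel fun x y => G.dist x y ≤ r)
        < pu (SimpleGraph.fromRel fun x y => G.dist x y ≤ r)) := by
  refine ⟨?_, ?_, ?_, ?_⟩
  · intro V G _ d ρ _ hc hq hreg h0 h1 hN hb
    exact gap_regular hc hq hreg h0 h1 hN hb
  · intro V G _ d c _ hc hq hreg h0 hexp hb
    exact gap_expansion hc hq hreg h0 hexp hb
  · intro V G _ _ hc hq hna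
    exact blowUp_gap hc hq hna
  · intro V G _ _ hc hq hna
    exact spread_gap hc hq hna

end Vale.Agent.Results.P165.LargeDegree
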