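import Vale.Agent.P165.Prod.Main
import Vale.Agent.P165.Prod.VirtualGeo
import Vale.Agent.P165.Prod.TreeGeo
import Vale.Agent.P151.Main

/-!
`pc < pu` for every Cayley graph of groups virtually acting freely and cofinitely on products
of regular trees, of virtually centre-free subgroups of products of free groups, and of
products of free groups.
-/

namespace Vale.Agent.Results.P165.ProductsOfTrees

open SimpleGraph Vale.Agent.P165 Vale.Agent.P165.Prod

theorem result :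
    (∀ (Δ : Type) [Group Δ] (G : Subgroup Δ), G.FiniteIndex →
      ∀ (n : ℕ) (V : Fin (n + 1) → Type) (T : ∀ i, SimpleGraph (V i)) (k : Fin (n + 1) → ℕ)
        [∀ i, MulAction G (V i)],
      (∀ i, (T i).IsTree ∧ 3 ≤ k i ∧ ∀ v, ((T i).neighborSet v).ncard = k i) →
      (∀ (g : G) i u v, (T i).Adj u v → (T i).Adj (g • u) (g • v)) →
      (∀ (g : G) (x : ∀ i, V i), (∀ i, g • x i = x i) → g = 1) →
      (∃ F : Finset (∀ i, V i), ∀ x : ∀ i, V i, ∃ g : G, (fun i => g • x i) ∈ F) →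
      ∀ S : Finset Δ, (∀ s ∈ S, s⁻¹ ∈ S) → (1 : Δ) ∉ S →
        Subgroup.closure (S : Set Δ) = ⊤ →
        Infinite Δ ∧ (mulCayley (S : Set Δ)).Connected ∧
          QuasiTransitive (mulCayley (S : Set Δ)) ∧
          pc (mulCayley (S : Set Δ)) < pu (mulCayley (S : Set Δ))) ∧
    (∀ (Δ : Type) [Group Δ] (G : Subgroup Δ), G.FiniteIndex → Nontrivial G →
      (∀ z : G, (∀ a, z * a = a * z) → z = 1) →
      (∃ (n : ℕ) (m : Fin n → ℕ) (φ : G →* ∀ i, FreeGroup (Fin (m i))), Function.Injective φ) →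
      ∀ S : Finset Δ, (∀ s ∈ S, s⁻¹ ∈ S) → (1 : Δ) ∉ S →
        Subgroup.closure (S : Set Δ) = ⊤ →
        Infinite Δ ∧ (mulCayley (S : Set Δ)).Connected ∧
          QuasiTransitive (mulCayley (S : Set Δ)) ∧ Nonamenable (mulCayley (S : Set Δ)) ∧
          pc (mulCayley (S : Set Δ)) < pu (mulCayley (S : Set Δ))) ∧
    (∀ (n : ℕ) (k : Fin (n + 1) → ℕ), (∀ i, 2 ≤ k i) →
      (∃ S : Finset (∀ i, FreeGroup (Fin (k i))), (∀ s ∈ S, s⁻¹ ∈ S) ∧ 1 ∉ S ∧
        Subgroup.closure (S : Set (∀ i, FreeGroup (Fin (k i)))) = ⊤) ∧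
      ∀ S : Finset (∀ i, FreeGroup (Fin (k i))), (∀ s ∈ S, s⁻¹ ∈ S) →
        (1 : ∀ i, FreeGroup (Fin (k i))) ∉ S →
        Subgroup.closure (S : Set (∀ i, FreeGroup (Fin (k i)))) = ⊤ →
        Nonamenable (mulCayley (S : Set (∀ i, FreeGroup (Fin (k i))))) ∧
          pc (mulCayley (S : Set (∀ i, FreeGroup (Fin (k i)))))
            < pu (mulCayley (S : Set (∀ i, FreeGroup (Fin (k i)))))) := by
  classical
  have hlf : ∀ (Γ : Type) [Group Γ] (S : Finset Γ), (∀ s ∈ S, s⁻¹ ∈ S) → (1 : Γ) ∉ S →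
      Nonempty (mulCayley (S : Set Γ)).LocallyFinite := fun Γ _ S hS h1 =>
    ⟨fun x => ((S.image (x * ·)).finite_toSet.subset fun y hy =>
      Finset.mem_coe.2 (Finset.mem_image.2
        ⟨x⁻¹ * y, (Vale.Agent.P151.cayley_adj S hS h1).1 hy, by group⟩)).fintype⟩
  have hconn : ∀ (Γ : Type) [Group Γ] (S : Finset Γ), (∀ s ∈ S, s⁻¹ ∈ S) → (1 : Γ) ∉ S →
      Subgroup.closure (S : Set Γ) = ⊤ →
      (mulCayley (S : Set Γ)).Connected ∧ QuasiTransitive (mulCayley (S : Set Γ)) := by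
    intro Γ _ S hS h1 hgen
    have : Nonempty Γ := ⟨1⟩
    refine ⟨⟨fun x y => Vale.Agent.P151.cayley_connected S hS h1 hgen x y⟩,
      ⟨{1}, fun v => ⟨Vale.Agent.P151.leftIso S v⁻¹, ?_⟩⟩⟩
    exact Finset.mem_singleton.2
      ((Vale.Agent.P151.leftIso_apply S v⁻¹ v).trans (inv_mul_cancel v))
  refine ⟨fun Δ _ G hfi n V T k _ hT hadj hfree hcof S hS h1 hgen => ?_,
    fun Δ _ G hfi hnt hZ hemb S hS h1 hgen => ?_, fun n k hk =>
    ⟨prod_exists_generators (Fin (n + 1)) k, fun S hS h1 hgen => ⟨prod_nonamenable hk S hgen, ?_⟩⟩⟩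
  · have hL : TreeAct.TreeLattice (Γ := G) T k :=
      ⟨fun i => (hT i).1, fun i => (hT i).2.1, fun i => (hT i).2.2, hadj, hfree, hcof⟩
    obtain ⟨Geom0⟩ := TreeAct.tree_geo hL fun i => ((hT i).1.connected.nonempty).some
    have : Infinite G := TreeAct.tree_lattice_infinite hL
    have hI : Infinite Δ := Infinite.of_injective (fun g : G => (g : Δ)) Subtype.val_injective
    have : (G.subtype.range).FiniteIndex := by rw [G.range_subtype]; exact hfi
    obtain ⟨Geom⟩ := Geom0.extend G.subtype G.subtype_injective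
    obtain ⟨hL'⟩ := hlf Δ S hS h1
    exact ⟨hI, (hconn Δ S hS h1 hgen).1, (hconn Δ S hS h1 hgen).2,
      pc_lt_pu_of_geo S hS h1 hgen Geom⟩
  · obtain ⟨n, m, φ, hφ⟩ := hemb
    have : Group.FG Δ := ⟨⟨S, hgen⟩⟩
    obtain ⟨hL⟩ := hlf Δ S hS h1
    obtain ⟨⟨Geom⟩, hI, hN⟩ := virtual_geo G hZ m φ hφ
    exact ⟨hI, (hconn Δ S hS h1 hgen).1, (hconn Δ S hS h1 hgen).2, hN S hgen,
      pc_lt_pu_of_geo S hS h1 hgen Geom⟩
  · have : ∀ i, Infinite (FreeGroup (Fin (k i))) := fun i => by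
      have : Nonempty (Fin (k i)) := ⟨⟨0, by have := hk i; omega⟩⟩
      infer_instance
    have : Infinite (∀ i, FreeGroup (Fin (k i))) := Pi.infinite_of_right
    obtain ⟨hL⟩ := hlf _ S hS h1
    obtain ⟨Geom⟩ := prod_geo (Fin (n + 1)) k hk
    exact pc_lt_pu_of_geo S hS h1 hgen Geom

end Vale.Agent.Results.P165.ProductsOfTrees
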